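import Vale.Agent.P209.Toric.Main

/-!
# P209: one large ball and many small balls
-/

namespace Vale.Agent.Results.P209.BigSmall

open Vale.Agent.P209

/-- Let `n, m ≥ 1`. Given positive capacities `r_1, …, r_k` with `k ≤ m^n - (m-1)^n + 1` and a
distinguished index `i0` such that `r_{i0} < R`, and `(m - 1) r_i ≤ r_{i0}` and `r_{i0} + r_i < R` for
all `i ≠ i0`, the closed balls `B^{2n}(r_i)` admit a symplectic embedding of their disjoint union into
the open ball `Int B^{2n}(R)`. -/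
theorem result (n m k : ℕ) (hn : 1 ≤ n) (hm : 1 ≤ m) (R : ℝ) (r : Fin k → ℝ)
    (hr : ∀ i, 0 < r i) (i0 : Fin k) (hk : k ≤ m ^ n - (m - 1) ^ n + 1) (h0 : r i0 < R)
    (h1 : ∀ i, i ≠ i0 → ((m : ℝ) - 1) * r i ≤ r i0) (h2 : ∀ i, i ≠ i0 → r i0 + r i < R) :
    Packs n r R :=
  packs_big_small n m k hn hm R r hr i0 hk h0 h1 h2

end Vale.Agent.Results.P209.BigSmall
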