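import Vale.Agent.P209.Toric.Final

/-!
# P209: sufficiency results for few balls and for arbitrarily many balls
-/

namespace Vale.Agent.Results.P209.Combined

open Vale.Agent.P209

/-- Let `n ≥ 1`.
(a) At most `2^n` balls with `r_i < R` and `r_i + r_j < R` can be packed.
(b) Any number of balls with `∑ r_i^n ≤ (R/2)^n` can be packed.
(c) Any number of balls with `m_i r_i < R`, where the positive integers `m_i` form a chain for
divisibility and `∑ m_i^{-n} ≤ 1`, can be packed.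
(d) For every `ε > 0` there is `δ > 0` such that one ball of arbitrary capacity `a < R` together with
any number of balls of capacities `r_i ≤ δ (R - a)` with `∑ r_i^n ≤ (1 - ε) (R^n - a^n)` can be
packed. -/
theorem result (n : ℕ) (hn : 1 ≤ n) :
    (∀ (k : ℕ) (R : ℝ) (r : Fin k → ℝ), k ≤ 2 ^ n → (∀ i, 0 < r i) → (∀ i, r i < R) →
      (∀ i j, i ≠ j → r i + r j < R) → Packs n r R) ∧
    (∀ (k : ℕ) (R : ℝ) (r : Fin k → ℝ), 0 < R → (∀ i, 0 < r i) →
      ∑ i, r i ^ n ≤ (R / 2) ^ n → Packs n r R) ∧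
    (∀ (k : ℕ) (m : Fin k → ℕ) (R : ℝ) (r : Fin k → ℝ), (∀ i, 1 ≤ m i) →
      (∀ i j, m i ∣ m j ∨ m j ∣ m i) → ∑ i, (1 : ℝ) / (m i : ℝ) ^ n ≤ 1 →
      (∀ i, 0 < r i) → (∀ i, (m i : ℝ) * r i < R) → Packs n r R) ∧
    (∀ ε : ℝ, 0 < ε → ∃ δ : ℝ, 0 < δ ∧ ∀ (k : ℕ) (R a : ℝ) (r : Fin k → ℝ), 0 ≤ a → a < R →
      (∀ i, 0 < r i) → (∀ i, r i ≤ δ * (R - a)) → ∑ i, r i ^ n ≤ (1 - ε) * (R ^ n - a ^ n) →
      Packs n (Fin.cons a r : Fin (k + 1) → ℝ) R) :=
  ⟨fun k R r hk hr hR hp => packs_of_le_two_pow n k hn hk R r hr hR hp,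
    fun k R r hR hr hv => packs_half n k hn R hR r hr hv,
    fun k m R r hm hc hs hr h => packs_chain n k hn m hm hc hs R r hr h,
    fun ε hε => packs_big_dust n hn ε hε⟩

end Vale.Agent.Results.P209.Combined
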