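import Vale.Agent.P209.Toric.FinalMulti

/-!
# P209: all packing families in one statement, with the hypotheses of Conjecture A
-/

namespace Vale.Agent.Results.P209.ConjectureACases

open Vale.Agent.P209

/-- transport of `packs_multi` to a family `r : Fin k → ℝ` with a distinguished subset `S` of
(at most `2^n`) large balls -/
private theorem packs_subset (n : ℕ) (δ ε : ℝ)
    (H : ∀ (k₀ k : ℕ) (R : ℝ) (b : Fin k₀ → ℝ) (r : Fin k → ℝ),
      k₀ ≤ 2 ^ n → 0 < R → (∀ i, 0 < b i) → (∀ i, b i < R) → (∀ i j, i ≠ j → b i + b j < R) →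
      (∀ x, 0 < r x) → (∀ x, r x * R ^ (n - 1) ≤ δ * (R ^ n - ∑ i, b i ^ n)) →
      ∑ x, r x ^ n ≤ (1 - ε) * (R ^ n - ∑ i, b i ^ n) →
      Packs n (Fin.append b r : Fin (k₀ + k) → ℝ) R)
    (k : ℕ) (R : ℝ) (r : Fin k → ℝ) (hR : 0 < R) (hr : ∀ i, 0 < r i) (S : Finset (Fin k))
    (hS : S.card ≤ 2 ^ n) (h1 : ∀ i ∈ S, r i < R)
    (h2 : ∀ i ∈ S, ∀ j ∈ S, i ≠ j → r i + r j < R)
    (h3 : ∀ x, x ∉ S → r x * R ^ (n - 1) ≤ δ * (R ^ n - ∑ i ∈ S, r i ^ n))
    (h4 : ∑ x ∈ Sᶜ, r x ^ n ≤ (1 - ε) * (R ^ n - ∑ i ∈ S, r i ^ n)) : Packs n r R := by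
  classical
  set eS := S.orderIsoOfFin rfl with heS
  set eT := Sᶜ.orderIsoOfFin rfl with heT
  have sumS : ∀ F : Fin k → ℝ, ∑ i : Fin S.card, F (eS i).1 = ∑ i ∈ S, F i := by
    intro F
    rw [← Finset.sum_coe_sort S F]
    exact Fintype.sum_equiv eS.toEquiv _ _ (fun i => rfl)
  have sumT : ∀ F : Fin k → ℝ, ∑ i : Fin Sᶜ.card, F (eT i).1 = ∑ i ∈ Sᶜ, F i := by
    intro F
    rw [← Finset.sum_coe_sort Sᶜ F]
    exact Fintype.sum_equiv eT.toEquiv _ _ (fun i => rfl)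
  have hP := H S.card Sᶜ.card R (fun i => r (eS i).1) (fun x => r (eT x).1) hS hR
    (fun i => hr _) (fun i => h1 _ (eS i).2)
    (fun i j hij => h2 _ (eS i).2 _ (eS j).2
      (fun h => hij (eS.injective (Subtype.ext h))))
    (fun x => hr _)
    (fun x => by
      rw [sumS (fun i => r i ^ n)]
      exact h3 _ (Finset.mem_compl.1 (eT x).2))
    (by
      rw [sumS (fun i => r i ^ n), sumT (fun i => r i ^ n)]
      exact h4)
  -- reindex along the injective map `Fin k → Fin (S.card + Sᶜ.card)`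
  let g : Fin k → Fin (S.card + Sᶜ.card) := fun i =>
    if h : i ∈ S then Fin.castAdd _ (eS.symm ⟨i, h⟩)
    else Fin.natAdd _ (eT.symm ⟨i, Finset.mem_compl.2 h⟩)
  have hg : Function.Injective g := by
    intro i j hij
    by_cases hi : i ∈ S <;> by_cases hj : j ∈ S
    · simp only [g, hi, hj, dif_pos] at hij
      have := eS.symm.injective (Fin.castAdd_injective _ _ hij)
      exact congrArg Subtype.val this
    · simp only [g, hi, hj, dif_pos, dif_neg, not_false_eq_true] at hij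
      exact absurd hij (by
        intro h
        have h' := congrArg Fin.val h
        simp only [Fin.val_castAdd, Fin.val_natAdd] at h'
        have := (eS.symm ⟨i, hi⟩).2
        omega)
    · simp only [g, hi, hj, dif_pos, dif_neg, not_false_eq_true] at hij
      exact absurd hij (by
        intro h
        have h' := congrArg Fin.val h
        simp only [Fin.val_castAdd, Fin.val_natAdd] at h'
        have := (eS.symm ⟨j, hj⟩).2
        omega)
    · simp only [g, hi, hj, dif_neg, not_false_eq_true] at hij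
      have := eT.symm.injective (Fin.natAdd_injective _ _ hij)
      exact congrArg Subtype.val this
  have hQ := PacksI.reindex ((packs_iff_packsI _ _).1 hP) g hg
  have hfun : (fun x => (Fin.append (fun i => r (eS i).1) (fun x => r (eT x).1) :
      Fin (S.card + Sᶜ.card) → ℝ) (g x)) = r := by
    funext i
    by_cases hi : i ∈ S
    · simp only [g, hi, dif_pos, Fin.append_left, OrderIso.apply_symm_apply]
    · simp only [g, hi, dif_neg, not_false_eq_true, Fin.append_right, OrderIso.apply_symm_apply]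
  rw [hfun] at hQ
  exact (packs_iff_packsI _ _).2 hQ

/-- Let `n ≥ 1`. There is a function `δ` with `δ ε > 0` for `ε > 0` such that positive capacities
`r_1, …, r_k` and `R` admit a symplectic embedding of the disjoint union of the closed balls
`B^{2n}(r_i)` into the open ball `Int B^{2n}(R)` in each of the following cases.
(a) `k ≤ 2^n` and the two conditions of Conjecture A hold.
(a') `k ≤ 2^n`, `r_i < R` and `r_i + r_j < R` for `i < j`.
(b) For some `ε > 0` and some set `S` of at most `2^n` indices: `r_i < R` and `r_i + r_j < R` on `S`,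
and with `V = R^n - ∑_{i ∈ S} r_i^n` all other balls satisfy `r_x R^{n-1} ≤ δ(ε) V` and
`∑_{x ∉ S} r_x^n ≤ (1 - ε) V`.
(c) `∑ r_i^n ≤ (R/2)^n`.
(d) `m_i r_i < R` for positive integers `m_i` forming a chain for divisibility, `∑ m_i^{-n} ≤ 1`.
(e) `k ≤ m^n - (m-1)^n + 1` and for one index `i0`: `r_{i0} < R`, `(m-1) r_i ≤ r_{i0}` and
`r_{i0} + r_i < R` for `i ≠ i0`. -/
theorem result (n : ℕ) (hn : 1 ≤ n) :
    ∃ δ : ℝ → ℝ, (∀ ε, 0 < ε → 0 < δ ε) ∧
      ∀ (k : ℕ) (R : ℝ) (r : Fin k → ℝ), 0 < R → (∀ i, 0 < r i) →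
        ((k ≤ 2 ^ n ∧ ∑ i, r i ^ n < R ^ n ∧ ∀ i j, i < j → r i + r j < R) ∨
          (k ≤ 2 ^ n ∧ (∀ i, r i < R) ∧ ∀ i j, i < j → r i + r j < R) ∨
          (∃ ε, 0 < ε ∧ ∃ S : Finset (Fin k), S.card ≤ 2 ^ n ∧ (∀ i ∈ S, r i < R) ∧
            (∀ i ∈ S, ∀ j ∈ S, i < j → r i + r j < R) ∧
            (∀ x, x ∉ S → r x * R ^ (n - 1) ≤ δ ε * (R ^ n - ∑ i ∈ S, r i ^ n)) ∧
            ∑ x ∈ Sᶜ, r x ^ n ≤ (1 - ε) * (R ^ n - ∑ i ∈ S, r i ^ n)) ∨
          (∑ i, r i ^ n ≤ (R / 2) ^ n) ∨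
          (∃ m : Fin k → ℕ, (∀ i, 1 ≤ m i) ∧ (∀ i j, m i ∣ m j ∨ m j ∣ m i) ∧
            ∑ i, (1 : ℝ) / (m i : ℝ) ^ n ≤ 1 ∧ ∀ i, (m i : ℝ) * r i < R) ∨
          (∃ (m : ℕ) (i0 : Fin k), 1 ≤ m ∧ k ≤ m ^ n - (m - 1) ^ n + 1 ∧ r i0 < R ∧
            (∀ i, i ≠ i0 → ((m : ℝ) - 1) * r i ≤ r i0) ∧ ∀ i, i ≠ i0 → r i0 + r i < R)) →
        Packs n r R := by
  classical
  choose! δ hδ hH using fun (ε : ℝ) (hε : 0 < ε) => packs_multi n hn ε hε
  refine ⟨δ, hδ, ?_⟩
  intro k R r hR hr hcase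
  have symm_pairs : ∀ (P : Fin k → Prop), (∀ i, P i → ∀ j, P j → i < j → r i + r j < R) →
      ∀ i, P i → ∀ j, P j → i ≠ j → r i + r j < R := by
    intro P h i hi j hj hij
    rcases lt_or_gt_of_ne hij with h' | h'
    · exact h i hi j hj h'
    · rw [add_comm]; exact h j hj i hi h'
  rcases hcase with ⟨hk, hv, hp⟩ | ⟨hk, hl, hp⟩ | ⟨ε, hε, S, hS, h1, h2, h3, h4⟩ | hv |
    ⟨m, hm, hc, hs, h⟩ | ⟨m, i0, hm, hk, h0, h1, h2⟩
  · refine packs_of_le_two_pow n k hn hk R r hr ?_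
      (fun i j hij => symm_pairs (fun _ => True) (fun i _ j _ h => hp i j h) i trivial j trivial hij)
    intro i
    have h1 : r i ^ n ≤ ∑ i, r i ^ n :=
      Finset.single_le_sum (f := fun i => r i ^ n) (fun j _ => (pow_pos (hr j) n).le)
        (Finset.mem_univ i)
    exact lt_of_pow_lt_pow_left₀ n hR.le (lt_of_le_of_lt h1 hv)
  · exact packs_of_le_two_pow n k hn hk R r hr hl
      (fun i j hij => symm_pairs (fun _ => True) (fun i _ j _ h => hp i j h) i trivial j trivial hij)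
  · exact packs_subset n (δ ε) ε (hH ε hε) k R r hR hr S hS h1
      (fun i hi j hj hij => symm_pairs (fun i => i ∈ S) h2 i hi j hj hij) h3 h4
  · exact packs_half n k hn R hR r hr hv
  · exact packs_chain n k hn m hm hc hs R r hr h
  · exact packs_big_small n m k hn hm R r hr i0 hk h0 h1 h2

end Vale.Agent.Results.P209.ConjectureACases
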