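import Vale.Agent.P209.Toric.FinalMulti

/-!
# P209: at most `2^n` balls of arbitrary sizes together with arbitrarily many small balls
-/

namespace Vale.Agent.Results.P209.LargeAndSmall

open Vale.Agent.P209

/-- Let `n ≥ 1`.
(a) At most `2^n` balls with `b_i < R` and `b_i + b_j < R` can be packed.
(b) For every `ε > 0` there is `δ > 0` such that `k₀ ≤ 2^n` balls as in (a) together with any number
of balls `r_x` with `r_x R^{n-1} ≤ δ V` and `∑ r_x^n ≤ (1 - ε) V`, where `V = R^n - ∑ b_i^n`, can be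
packed.
(c) Any number of balls with `∑ r_i^n ≤ (R/2)^n` can be packed.
(d) Any number of balls with `m_i r_i < R`, where the positive integers `m_i` form a chain for
divisibility and `∑ m_i^{-n} ≤ 1`, can be packed. -/
theorem result (n : ℕ) (hn : 1 ≤ n) :
    (∀ (k : ℕ) (R : ℝ) (b : Fin k → ℝ), k ≤ 2 ^ n → (∀ i, 0 < b i) → (∀ i, b i < R) →
      (∀ i j, i ≠ j → b i + b j < R) → Packs n b R) ∧
    (∀ ε : ℝ, 0 < ε → ∃ δ : ℝ, 0 < δ ∧ ∀ (k₀ k : ℕ) (R : ℝ) (b : Fin k₀ → ℝ) (r : Fin k → ℝ),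
      k₀ ≤ 2 ^ n → 0 < R → (∀ i, 0 < b i) → (∀ i, b i < R) → (∀ i j, i ≠ j → b i + b j < R) →
      (∀ x, 0 < r x) → (∀ x, r x * R ^ (n - 1) ≤ δ * (R ^ n - ∑ i, b i ^ n)) →
      ∑ x, r x ^ n ≤ (1 - ε) * (R ^ n - ∑ i, b i ^ n) →
      Packs n (Fin.append b r : Fin (k₀ + k) → ℝ) R) ∧
    (∀ (k : ℕ) (R : ℝ) (r : Fin k → ℝ), 0 < R → (∀ i, 0 < r i) →
      ∑ i, r i ^ n ≤ (R / 2) ^ n → Packs n r R) ∧
    (∀ (k : ℕ) (m : Fin k → ℕ) (R : ℝ) (r : Fin k → ℝ), (∀ i, 1 ≤ m i) →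
      (∀ i j, m i ∣ m j ∨ m j ∣ m i) → ∑ i, (1 : ℝ) / (m i : ℝ) ^ n ≤ 1 →
      (∀ i, 0 < r i) → (∀ i, (m i : ℝ) * r i < R) → Packs n r R) :=
  ⟨fun k R b hk hb hR hp => packs_of_le_two_pow n k hn hk R b hb hR hp,
    fun ε hε => packs_multi n hn ε hε,
    fun k R r hR hr hv => packs_half n k hn R hR r hr hv,
    fun k m R r hm hc hs hr h => packs_chain n k hn m hm hc hs R r hr h⟩

end Vale.Agent.Results.P209.LargeAndSmall
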