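import Vale.Agent.P209.Numeric

namespace Vale.Agent.Results.P209.VolumeRedundant

open Finset Vale.Agent.P209

/-- For `2 ≤ k ≤ 2^n` positive capacities `R_1, …, R_k`, the two-ball condition
`R_i + R_j < R` for all `i ≠ j` already implies the volume condition `∑ R_i^n < R^n`. -/
theorem result (n k : ℕ) (hn : 1 ≤ n) (hk2 : 2 ≤ k) (hk : k ≤ 2 ^ n) (R : ℝ)
    (r : Fin k → ℝ) (hr : ∀ i, 0 < r i) (hpair : ∀ i j, i ≠ j → r i + r j < R) :
    ∑ i, r i ^ n < R ^ n :=
  volume_of_pairs n k hn hk2 hk R r hr hpair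

end Vale.Agent.Results.P209.VolumeRedundant
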